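import Vale.Agent.P022D.L2.Defs

namespace Vale.Agent.P022E.L2
export Vale.Agent.P022D.L2 (
  Rel FoxS fx Holds Lim Uni hp Cup0 EvS Sq PtS mC Two Coc Cpt mA dw CptS RelS Loc2 ArS SngS
  Wd ev)
end Vale.Agent.P022E.L2

namespace Vale.Agent.P022E.L2.Loc2
export Vale.Agent.P022D.L2.Loc2 (
  gen dual mk c00 c11 c01 cmx cyc c22 hom c02)
end Vale.Agent.P022E.L2.Loc2

namespace Vale.Agent.P022E.L2.Rel
export Vale.Agent.P022D.L2.Rel (
  ori mk mag)
end Vale.Agent.P022E.L2.Rel
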