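import Vale.Agent.P022D.L2.Ar
import Vale.Agent.P022E.L2.Defs

namespace Vale.Agent.P022E.L2.Ar
export Vale.Agent.P022D.L2.Ar (
  lc D sg D_inj oct D_nsq cup ncup z2 map_sg basis sg_sq sg0 Ku pm sg1 kum sg_add sg_inj
  D_sur)
end Vale.Agent.P022E.L2.Ar

namespace Vale.Agent.P022E.L2.Ar.Ku
export Vale.Agent.P022D.L2.Ar.Ku (
  mul sq uniq pow coc)
end Vale.Agent.P022E.L2.Ar.Ku

namespace Vale.Agent.P022E.L2
export Vale.Agent.P022D.L2 (
  ar)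
end Vale.Agent.P022E.L2
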