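import Vale.Agent.P022D.L2.Rel
import Vale.Agent.P022E.L2.Defs

namespace Vale.Agent.P022E.L2.RelP
export Vale.Agent.P022D.L2.RelP (
  mA_cons mA_app gen ex00 ev_map hom_ev cup_ev ev_nil ev_cons mC_app coc_one coc_ev lc_of
  idx ev_app a_ev mC_sym lin ok_ker ok_cyc ok_cup Ok)
end Vale.Agent.P022E.L2.RelP

namespace Vale.Agent.P022E.L2.RelP.Ok
export Vale.Agent.P022D.L2.RelP.Ok (
  pw nm mk inf op)
end Vale.Agent.P022E.L2.RelP.Ok

namespace Vale.Agent.P022E.L2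
export Vale.Agent.P022D.L2 (
  relS)
end Vale.Agent.P022E.L2
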