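import Vale.Agent.P022D.L2.Ev
import Vale.Agent.P022E.L2.Defs

namespace Vale.Agent.P022E.L2
export Vale.Agent.P022D.L2 (
  evs cpt)
end Vale.Agent.P022E.L2

namespace Vale.Agent.P022E.L2.Ev
export Vale.Agent.P022D.L2.Ev (
  pw first map_ev sq_step)
end Vale.Agent.P022E.L2.Ev
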