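import Vale.Agent.P022D.L2.Pt
import Vale.Agent.P022E.L2.Defs

namespace Vale.Agent.P022E.L2.Pt
export Vale.Agent.P022D.L2.Pt (
  lconst lsub der_det luniq dw_eq cmb_app cmb_rel lmul Dr lmap lcongr cmb_dr ev_det der_pw
  lder ev_map map_pw der_mul ev_cons cmb_X ladd cmb der_one ev_der)
end Vale.Agent.P022E.L2.Pt

namespace Vale.Agent.P022E.L2
export Vale.Agent.P022D.L2 (
  ptS)
end Vale.Agent.P022E.L2
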