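import Vale.Agent.P022D.L2.Fox
import Vale.Agent.P022E.L2.Defs

namespace Vale.Agent.P022E.L2.Fox
export Vale.Agent.P022D.L2.Fox (
  mem_smul_top II_top th_one th closed I_sup th_apply sg_eq I_smul Mt sg tr_dw mem_I th_th
  sg_apply I_mono magnus T I_le uni_eq I)
end Vale.Agent.P022E.L2.Fox

namespace Vale.Agent.P022E.L2
export Vale.Agent.P022D.L2 (
  foxS)
end Vale.Agent.P022E.L2
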