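import Vale.Agent.P022D.L2.SngA
import Vale.Agent.P022E.L2.Pt

namespace Vale.Agent.P022E.L2
end Vale.Agent.P022E.L2

namespace Vale.Agent.P022E.L2.Sng
export Vale.Agent.P022D.L2.Sng (
  step fund words par_nil expo tor mA_cons par par_cons sn fx_map step' uniq8)
end Vale.Agent.P022E.L2.Sng
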