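import Vale.Agent.P022D.L2.Sng
import Vale.Agent.P022E.L2.SngA

namespace Vale.Agent.P022E.L2.Sng.ML
export Vale.Agent.P022D.L2.Sng.ML (
  uniq det const mul pow)
end Vale.Agent.P022E.L2.Sng.ML

namespace Vale.Agent.P022E.L2.Sng.InL
export Vale.Agent.P022D.L2.Sng.InL (
  of pow adj one mul)
end Vale.Agent.P022E.L2.Sng.InL

namespace Vale.Agent.P022E.L2.Sng
export Vale.Agent.P022D.L2.Sng (
  ext2 mem_of_mul tor1 InL nil cm_eq ML cm cm_pow sq_one core an_cm sq_mem canc an_an u_mem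
  tw cc mem_of_rat adj_eq cm_comm cm_one ent an_sq an_in cm_in adj cm_sq_in an cm_sq)
end Vale.Agent.P022E.L2.Sng

namespace Vale.Agent.P022E.L2
export Vale.Agent.P022D.L2 (
  sngS)
end Vale.Agent.P022E.L2
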