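import Vale.Agent.P022D.L2.All
import Vale.Agent.P022E.L2.Fox
import Vale.Agent.P022E.L2.Sng

namespace Vale.Agent.P022E.L2
export Vale.Agent.P022D.L2 (
  pt)
end Vale.Agent.P022E.L2
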