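import Vale.Agent.P022D.W.Tame
import Vale.Agent.P022.H783.Sv.Grp

/-!
# P022E: the images of the decomposition groups are solvable; normal forms
-/

set_option linter.all false

open NumberField

noncomputable section

namespace Vale.Agent.P022E.L2

open Vale.Agent.P022 Vale.Agent.P022.H443 Vale.Agent.P022D

theorem solv_of_comm {G : Type*} [Group G] (A B : Subgroup G)
    (h : ∀ a ∈ A, ∀ b ∈ A, a * b * a⁻¹ * b⁻¹ ∈ B) (hB : Group.IsSolvable B) :
    Group.IsSolvable A := by
  obtain ⟨n, hn⟩ := hB.solvable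
  have key : ∀ n, (derivedSeries A (n + 1)).map A.subtype ≤
      (derivedSeries B n).map B.subtype := by
    intro n
    induction n with
    | zero =>
      rw [derivedSeries_succ, Subgroup.map_commutator, Subgroup.commutator_le]
      rintro _ ⟨a, -, rfl⟩ _ ⟨b, -, rfl⟩
      exact ⟨⟨_, h a a.2 b b.2⟩, trivial, rfl⟩
    | succ n ih =>
      rw [derivedSeries_succ, derivedSeries_succ B, Subgroup.map_commutator,
        Subgroup.map_commutator]
      exact Subgroup.commutator_mono ih ih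
  refine ⟨n + 1, ?_⟩
  have h1 := key n
  rw [hn, Subgroup.map_bot, le_bot_iff] at h1
  exact (Subgroup.map_eq_bot_iff_of_injective _ A.subtype_injective).1 h1

theorem solv_ker {G A B : Type*} [Group G] [Group A] [Group B] (f : G →* A) (q : G →* B)
    (h : q.ker ≤ f.ker) (hq : Group.IsSolvable q.range) : Group.IsSolvable f.range := by
  obtain ⟨n, hn⟩ := hq.solvable
  refine ⟨n, ?_⟩
  rw [← map_derivedSeries_eq q.rangeRestrict_surjective, Subgroup.map_eq_bot_iff,
    MonoidHom.ker_rangeRestrict] at hn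
  rw [← map_derivedSeries_eq f.rangeRestrict_surjective, Subgroup.map_eq_bot_iff,
    MonoidHom.ker_rangeRestrict]
  exact hn.trans h

section fin

variable {R : Type*} [CommRing R] [IsDedekindDomain R]
  {G : Type*} [Group G] [MulSemiringAction G R]

theorem one_of_pow [FaithfulSMul G R] {P : Ideal R} [hP : P.IsPrime] {m : ℕ} (hm : (m : R) ∉ P)
    {g : G} (h : InI1 P g) (hg : g ^ m = 1) : g = 1 := by
  have key : ∀ n : ℕ, ∀ x : R, g • x - x ∈ P ^ n := by
    intro n
    induction n with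
    | zero => intro x; simp
    | succ n ih =>
      intro x
      have h1 : ∀ i : ℕ, (g ^ i) • x - x - i * (g • x - x) ∈ P ^ (n + 1) := by
        intro i
        induction i with
        | zero => simp
        | succ i ih' =>
          have h2 := (P ^ (n + 1)).add_mem ih' ((h.pow i).sub_mem n (ih x))
          have e : (g ^ (i + 1)) • x - x - ((i + 1 : ℕ) : R) * (g • x - x) =
              (g ^ i) • x - x - i * (g • x - x) + ((g ^ i) • (g • x - x) - (g • x - x)) := by
            rw [smul_sub, ← mul_smul, ← pow_succ]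
            push_cast
            ring
          rwa [e]
      have h3 := h1 m
      rw [hg, one_smul, sub_self, zero_sub, neg_mem_iff] at h3
      exact (Ideal.IsPrime.mul_mem_pow P h3).resolve_left hm
  have hI : (⨅ n : ℕ, P ^ n) = ⊥ := Ideal.iInf_pow_eq_bot_of_isDomain P hP.ne_top
  apply FaithfulSMul.eq_of_smul_eq_smul (α := R)
  intro x
  have : g • x - x ∈ (⨅ n : ℕ, P ^ n) := by
    rw [Ideal.mem_iInf]
    exact fun n => key n x
  rw [hI, Ideal.mem_bot, sub_eq_zero] at this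
  rw [this, one_smul]

theorem inert_solv [FaithfulSMul G R] [Finite G] {P : Ideal R} [hP : P.IsPrime] (hP0 : P ≠ ⊥)
    {l : ℕ} (hl : l.Prime) (hlP : (l : R) ∈ P) : Group.IsSolvable (inert P : Subgroup G) := by
  haveI := Fact.mk hl
  let V : Subgroup G :=
    { carrier := {g | InI1 P g}
      mul_mem' := fun a b => a.mul b
      one_mem' := ⟨InI.one, fun x _ => by simp⟩
      inv_mem' := fun {g} a => ⟨a.1.inv, fun x hx => by
        have h := a.2 _ (a.1.inv.smul_mem hx)
        rwa [smul_inv_smul, ← neg_mem_iff, neg_sub] at h⟩ }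
  have hW : IsPGroup l V := by
    intro g
    obtain ⟨k, m, hm, e⟩ := Nat.exists_eq_pow_mul_and_not_dvd (orderOf_pos (g : G)).ne' l hl.ne_one
    refine ⟨k, Subtype.ext (one_of_pow (P := P) (m := m) (fun h => hP.ne_top ?_) (InI1.pow g.2 _) ?_)⟩
    · obtain ⟨a, b, hab⟩ := (Nat.isCoprime_iff_coprime.2 (hl.coprime_iff_not_dvd.2 hm)).map
        (Int.castRingHom R)
      rw [Ideal.eq_top_iff_one, ← hab, map_natCast, map_natCast]
      exact P.add_mem (P.mul_mem_left _ hlP) (P.mul_mem_left _ h)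
    · rw [SubmonoidClass.coe_pow, ← pow_mul, ← e, pow_orderOf_eq_one]
  haveI := hW.isNilpotent
  obtain ⟨χ, hχ⟩ := W.exists_chi (G := G) hP0
  refine solv_of_comm _ V (fun a ha b hb => ?_) inferInstance
  let a' : (inert P : Subgroup G) := ⟨a, ha⟩
  let b' : (inert P : Subgroup G) := ⟨b, hb⟩
  refine hχ (a' * b' * a'⁻¹ * b'⁻¹) ?_
  rw [map_mul, map_mul, map_mul, mul_comm (χ _), mul_assoc (χ _), ← map_mul, mul_inv_cancel,
    map_one, mul_one, ← map_mul, mul_inv_cancel, map_one]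

end fin

theorem dec_comm {l : ℕ} {P : Ideal (𝓞 Qb)} (hl : l.Prime) (hP : P.IsPrime)
    (hlP : (l : 𝓞 Qb) ∈ P) {a b : GQ} (ha : a ∈ W.dec P) (hb : b ∈ W.dec P) :
    a * b * a⁻¹ * b⁻¹ ∈ inP P := by
  classical
  obtain ⟨φ, hφ⟩ := W.exists_phi hl hP hlP
  have key : ∀ c ∈ W.dec P, ∀ x y : 𝓞 Qb, ∃ k : ℕ,
      Ideal.Quotient.mk P (c • x) = Ideal.Quotient.mk P x ^ k ∧
      Ideal.Quotient.mk P (c • y) = Ideal.Quotient.mk P y ^ k := by
    intro c hc x y
    obtain ⟨k, hk⟩ := W.dec_fin hl hP hlP hφ hc {x, y}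
    have h1 : ∀ z ∈ ({x, y} : Finset (𝓞 Qb)),
        Ideal.Quotient.mk P (c • z) = Ideal.Quotient.mk P z ^ l ^ k := fun z hz => by
      rw [← Ideal.Quotient.eq.2 (hk z hz), Ideal.Quotient.eq.2 (W.phi_pow hl hP hφ k z), map_pow]
    exact ⟨_, h1 x (by simp), h1 y (by simp)⟩
  intro x
  obtain ⟨y, rfl⟩ : ∃ y, x = b • a • y := ⟨a⁻¹ • b⁻¹ • x, by simp⟩
  obtain ⟨k, k1, k2⟩ := key a ha y (b • y)
  obtain ⟨j, j1, j2⟩ := key b hb y (a • y)
  rw [← Ideal.Quotient.eq, mul_smul, mul_smul, mul_smul, inv_smul_smul, inv_smul_smul, k2, j2, k1,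
    j1, ← pow_mul, ← pow_mul, mul_comm]

/-- **the image of a decomposition group is solvable** -/
theorem dec_solv {Γ : Type*} [Group Γ] (f : GQ →* Γ) (hf : IsOpen {g | f g = 1}) {l : ℕ}
    {P : Ideal (𝓞 Qb)} (hl : l.Prime) (hP : P.IsPrime) (hlP : (l : 𝓞 Qb) ∈ P) :
    Group.IsSolvable (f.comp (W.dec P).subtype).range := by
  replace hf : IsOpen (f.ker : Set GQ) := hf
  have := galQb
  have := cut_fin hf
  have := cut_gal hf
  have : NumberField (cut f) :=
    { to_charZero := inferInstance, to_finiteDimensional := inferInstance }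
  let j : cut f →+* Qb := algebraMap (cut f) Qb
  let m : 𝓞 (cut f) →+* 𝓞 Qb := RingOfIntegers.mapRingHom j
  let q : GQ →* (cut f ≃ₐ[ℚ] cut f) := AlgEquiv.restrictNormalHom (cut f)
  have hq : ∀ (g : GQ) (x : cut f), ((q g x : cut f) : Qb) = g x := fun g x =>
    AlgEquiv.restrictNormal_commutes g (cut f) x
  have hm : ∀ (g : GQ) (x : 𝓞 (cut f)), m (q g • x) = g • m x := by
    intro g x
    apply RingOfIntegers.ext
    exact hq g _
  have hker : ∀ g, q g = 1 → f g = 1 := by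
    intro g h
    have e : g ∈ (cut f).fixingSubgroup := by
      rw [IntermediateField.mem_fixingSubgroup_iff]
      intro x hx
      have h1 := hq g ⟨x, hx⟩
      rw [h] at h1
      exact h1.symm
    rwa [cut_fix hf] at e
  have hQp : (P.comap m).IsPrime := Ideal.comap_isPrime m P
  have := faithful_ringOfIntegers (cut f)
  have h1 : (l : 𝓞 (cut f)) ∈ P.comap m := by
    rw [Ideal.mem_comap, map_natCast]; exact hlP
  have hQ0 : P.comap m ≠ ⊥ := by
    intro h
    rw [h, Ideal.mem_bot] at h1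
    exact hl.ne_zero (by exact_mod_cast h1)
  refine solv_ker _ (q.comp (W.dec P).subtype) (fun g hg => hker g hg)
    (solv_of_comm _ (inert (P.comap m)) ?_ (inert_solv hQ0 hl h1))
  rintro _ ⟨a, rfl⟩ _ ⟨b, rfl⟩ x
  have h2 := dec_comm hl hP hlP a.2 b.2 (m x)
  rw [← hm, map_mul, map_mul, map_mul, map_inv, map_inv, ← map_sub] at h2
  exact h2

/-- the same for a group which maps to a decomposition group -/
theorem dec_solv' {Γ G : Type*} [Group Γ] [Group G] (f : GQ →* Γ) (hf : IsOpen {g | f g = 1})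
    {l : ℕ} {P : Ideal (𝓞 Qb)} (hl : l.Prime) (hP : P.IsPrime) (hlP : (l : 𝓞 Qb) ∈ P)
    (j : G →* GQ) (hj : ∀ x, j x ∈ W.dec P) : Group.IsSolvable (f.comp j).range := by
  haveI := dec_solv f hf hl hP hlP
  exact Group.isSolvable_of_isSolvable_injective (Subgroup.inclusion_injective
    (show (f.comp j).range ≤ (f.comp (W.dec P).subtype).range from by
      rintro _ ⟨x, rfl⟩
      exact ⟨⟨j x, hj x⟩, rfl⟩))

section nf

open Matrix Vale.Agent.P022.H783.Sv

variable {k : Type} [Field k]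

theorem normal' (b : Matrix (Fin 2) (Fin 2) k) (hb : ∀ c : k, b ≠ c • 1)
    (hs : ∃ y : k, y ^ 2 - b.trace * y + b.det = 0) :
    ∃ (P : GL (Fin 2) k) (l m x : k), b * (P : Matrix (Fin 2) (Fin 2) k) =
      (P : Matrix (Fin 2) (Fin 2) k) * !![l, x; 0, m] ∧ (l ≠ m ∧ x = 0 ∨ l = m ∧ x ≠ 0) := by
  have h1 : ∃ (P : GL (Fin 2) k) (l m x : k), b * (P : Matrix (Fin 2) (Fin 2) k) =
      (P : Matrix (Fin 2) (Fin 2) k) * !![l, x; 0, m] := by
    by_cases hr : b 1 0 = 0
    · refine ⟨1, b 0 0, b 1 1, b 0 1, ?_⟩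
      ext i j
      fin_cases i <;> fin_cases j <;> simp [hr]
    · obtain ⟨l, hl⟩ := hs
      rw [trace_fin_two, det_fin_two] at hl
      have hdet : IsUnit (!![b 0 0 - (b 0 0 + b 1 1 - l), 1; b 1 0, 0] :
          Matrix (Fin 2) (Fin 2) k).det := by
        rw [det_fin_two_of, isUnit_iff_ne_zero]
        intro h
        apply hr
        linear_combination -h
      refine ⟨GeneralLinearGroup.mk'' _ hdet, l, b 0 0 + b 1 1 - l, 1, ?_⟩
      have hP : ((GeneralLinearGroup.mk'' _ hdet : GL (Fin 2) k) : Matrix (Fin 2) (Fin 2) k) =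
          !![b 0 0 - (b 0 0 + b 1 1 - l), 1; b 1 0, 0] := rfl
      rw [hP]
      ext i j
      fin_cases i <;> fin_cases j
      · simp [Matrix.mul_apply, Fin.sum_univ_two]
        linear_combination -hl
      · simp [Matrix.mul_apply, Fin.sum_univ_two]
      · simp [Matrix.mul_apply, Fin.sum_univ_two]
        ring
      · simp [Matrix.mul_apply, Fin.sum_univ_two]
  obtain ⟨P, l, m, x, hP⟩ := h1
  by_cases hlm : l = m
  · refine ⟨P, l, m, x, hP, Or.inr ⟨hlm, ?_⟩⟩
    rintro rfl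
    apply hb l
    subst hlm
    have h2 : (!![l, 0; 0, l] : Matrix (Fin 2) (Fin 2) k) = l • 1 := by
      ext i j
      fin_cases i <;> fin_cases j <;> simp
    rw [h2] at hP
    have h3 := congrArg (fun X => X * ((P⁻¹ : GL (Fin 2) k) : Matrix (Fin 2) (Fin 2) k)) hP
    simp only [Matrix.mul_assoc] at h3
    rw [← Units.val_mul, mul_inv_cancel] at h3
    simpa [smul_mul_assoc] using h3
  · have hml : m - l ≠ 0 := fun h => hlm (sub_eq_zero.1 h).symm
    have hdet : IsUnit (!![1, x / (m - l); 0, 1] : Matrix (Fin 2) (Fin 2) k).det := by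
      rw [det_fin_two_of]
      simp
    refine ⟨P * GeneralLinearGroup.mk'' _ hdet, l, m, 0, ?_, Or.inl ⟨hlm, rfl⟩⟩
    have hQ : ((GeneralLinearGroup.mk'' _ hdet : GL (Fin 2) k) : Matrix (Fin 2) (Fin 2) k) =
        !![1, x / (m - l); 0, 1] := rfl
    rw [Units.val_mul, ← Matrix.mul_assoc, hP, hQ, Matrix.mul_assoc, Matrix.mul_assoc]
    congr 1
    ext i j
    fin_cases i <;> fin_cases j
    · simp
    · simp
      field_simp
      ring
    · simp
    · simp

/-- **solvable groups are triangular or monomial** -/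
theorem cls [CharP k 2] {G : Type} [Group G] (ρ : G →* GL (Fin 2) k)
    (hs : Group.IsSolvable ρ.range) (he : ∀ g, ∃ y : k, y ^ 2 -
      (ρ g : Matrix (Fin 2) (Fin 2) k).trace * y + (ρ g : Matrix (Fin 2) (Fin 2) k).det = 0) :
    ∃ P : GL (Fin 2) k,
      (∀ g, ((P⁻¹ * ρ g * P : GL (Fin 2) k) : Matrix (Fin 2) (Fin 2) k) 1 0 = 0) ∨
      ∀ g, (((P⁻¹ * ρ g * P : GL (Fin 2) k) : Matrix (Fin 2) (Fin 2) k) 0 1 = 0 ∧
          ((P⁻¹ * ρ g * P : GL (Fin 2) k) : Matrix (Fin 2) (Fin 2) k) 1 0 = 0) ∨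
        (((P⁻¹ * ρ g * P : GL (Fin 2) k) : Matrix (Fin 2) (Fin 2) k) 0 0 = 0 ∧
          ((P⁻¹ * ρ g * P : GL (Fin 2) k) : Matrix (Fin 2) (Fin 2) k) 1 1 = 0) := by
  by_cases hn : ∀ g, ∃ c : k, (ρ g : Matrix (Fin 2) (Fin 2) k) = c • 1
  · refine ⟨1, Or.inl fun g => ?_⟩
    obtain ⟨c, hc⟩ := hn g
    rw [inv_one, one_mul, mul_one, hc]
    simp
  obtain ⟨b, hb, hcomm⟩ := exists_comm ρ hs hn
  obtain ⟨P, l, m, x, hP, hlx⟩ := normal' _ hb (he b)
  have hd := fun g => dich hP hlx (hcomm g)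
  refine ⟨P, ?_⟩
  by_cases hlm : l = m
  · exact Or.inl fun g => ((hd g).resolve_right fun h => h.1 hlm).1
  · exact Or.inr fun g => (hd g).imp (fun h => ⟨h.2 hlm, h.1⟩) fun h => h.2

end nf

end Vale.Agent.P022E.L2
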